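import Mathlib

namespace Vale.Agent.H5.P015

theorem irr_of_norm {π : GaussianInt} {p : ℕ} (hp : p.Prime) (h : π.norm = p) :
    Irreducible π := by
  constructor
  · intro hu
    have := Zsqrtd.norm_eq_one_iff.2 hu
    rw [h, Int.natAbs_natCast] at this
    exact hp.one_lt.ne' this
  · intro a b hab
    have h1 : a.norm.natAbs * b.norm.natAbs = p := by
      rw [← Int.natAbs_mul, ← Zsqrtd.norm_mul, ← hab, h, Int.natAbs_natCast]
    rcases (Nat.prime_mul_iff.1 (h1 ▸ hp)) with ⟨_, h2⟩ | ⟨_, h2⟩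
    · right; exact Zsqrtd.norm_eq_one_iff.1 h2
    · left; exact Zsqrtd.norm_eq_one_iff.1 h2

/-- Row D. -/
theorem rowD (z : GaussianInt) (hz : Prime z) (p : ℕ) (hp : p.Prime) (h4 : p % 4 = 1)
    (hd : (p:ℤ) ∣ z.norm) : z.norm = p := by
  have : Fact p.Prime := ⟨hp⟩
  obtain ⟨a, b, hab⟩ := Nat.Prime.sq_add_sq (p := p) (by omega)
  set π : GaussianInt := ⟨a, b⟩ with hπ
  have hn : π.norm = p := by
    rw [Zsqrtd.norm_def]
    simp only [hπ]
    rw [← hab]; push_cast; ring
  have hirr : Irreducible π := irr_of_norm hp hn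
  have hpr : Prime π := hirr.prime
  have hdvd : π ∣ z * star z := by
    have h1 : π ∣ ((p : ℤ) : GaussianInt) := by
      rw [← hn, Zsqrtd.norm_eq_mul_conj]
      exact dvd_mul_right _ _
    have h2 : ((p : ℤ) : GaussianInt) ∣ z * star z := by
      rw [← Zsqrtd.norm_eq_mul_conj]
      obtain ⟨c, hc⟩ := hd
      exact ⟨(c : GaussianInt), by rw [hc]; push_cast; ring⟩
    exact h1.trans h2
  rcases hpr.dvd_or_dvd hdvd with h | h
  · have hass := hirr.associated_of_dvd hz.irreducible h
    rw [← Zsqrtd.norm_eq_of_associated (by norm_num) hass, hn]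
  · have h' : star π ∣ z := by
      obtain ⟨c, hc⟩ := h
      exact ⟨star c, by rw [← star_star z, hc, star_mul']⟩
    have hn' : (star π).norm = p := by rw [Zsqrtd.norm_conj, hn]
    have hass := (irr_of_norm hp hn').associated_of_dvd hz.irreducible h'
    rw [← Zsqrtd.norm_eq_of_associated (by norm_num) hass, hn']

end Vale.Agent.H5.P015
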