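import Mathlib

namespace Vale.Agent.H5.P015

open Finset

/-- the residue that `x` has to avoid -/
noncomputable def av (r : ℕ → ℤ) (w : ℤ × ℤ) (p : ℕ) : ℕ := ((-(w.1 + r p * w.2)) % (p : ℤ)).toNat

theorem av_lt (r : ℕ → ℤ) (w : ℤ × ℤ) {p : ℕ} (hp : 0 < p) : av r w p < p := by
  unfold av
  have h1 := Int.emod_lt_of_pos (-(w.1 + r p * w.2)) (b := (p : ℤ)) (by exact_mod_cast hp)
  have h2 := Int.emod_nonneg (-(w.1 + r p * w.2)) (b := (p : ℤ)) (by exact_mod_cast hp.ne')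
  omega

theorem av_cast (r : ℕ → ℤ) (w : ℤ × ℤ) {p : ℕ} (hp : 0 < p) :
    (av r w p : ℤ) = (-(w.1 + r p * w.2)) % (p : ℤ) := by
  unfold av
  exact Int.toNat_of_nonneg (Int.emod_nonneg _ (by exact_mod_cast hp.ne'))

theorem count (P : Finset ℕ) (hP : ∀ p ∈ P, p.Prime) (r : ℕ → ℤ) (k : ℕ)
    (v : Fin k → ℤ × ℤ)
    (hF : ∀ p ∈ P, Function.Injective (fun j => (((v j).1 + r p * (v j).2 : ℤ) : ZMod p))) :
    #((range (∏ p ∈ P, p)).filter (fun x : ℕ => ∀ j, ∀ p ∈ P,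
      ¬ (p:ℤ) ∣ x + (v j).1 + r p * (v j).2)) ≤ ∏ p ∈ P, (p - k) := by
  classical
  have hcard : ∀ p ∈ P, #((range p) \ (univ.image (fun j => av r (v j) p))) = p - k := by
    intro p hp
    have hp0 := (hP p hp).pos
    rw [card_sdiff_of_subset, card_range, card_image_of_injective, card_univ, Fintype.card_fin]
    · intro i j hij
      apply hF p hp
      simp only at hij ⊢
      have h1 : (av r (v i) p : ℤ) = av r (v j) p := by rw [hij]
      rw [av_cast r _ hp0, av_cast r _ hp0] at h1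
      have h2 : ((-((v i).1 + r p * (v i).2) : ℤ) : ZMod p) = ((-((v j).1 + r p * (v j).2) : ℤ) : ZMod p) :=
        (ZMod.intCast_eq_intCast_iff _ _ _).2 h1
      rw [Int.cast_neg, Int.cast_neg] at h2
      exact neg_inj.1 h2
    · intro a ha
      obtain ⟨j, -, rfl⟩ := mem_image.1 ha
      exact mem_range.2 (av_lt r _ hp0)
  rw [← prod_congr rfl hcard, ← card_pi]
  refine card_le_card_of_injOn (fun x => fun p _ => x % p) ?_ ?_
  · intro x hx
    rw [mem_coe, mem_filter] at hx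
    rw [mem_coe, mem_pi]
    intro p hp
    have hp0 := (hP p hp).pos
    rw [mem_sdiff, mem_range]
    refine ⟨Nat.mod_lt _ hp0, ?_⟩
    intro h
    obtain ⟨j, -, hj⟩ := mem_image.1 h
    apply hx.2 j p hp
    have h1 : ((x % p : ℕ) : ℤ) = (-((v j).1 + r p * (v j).2)) % (p : ℤ) := by
      rw [← av_cast r _ hp0, hj]
    rw [Int.natCast_mod] at h1
    have h2 : (p : ℤ) ∣ (x : ℤ) - (-((v j).1 + r p * (v j).2)) := by
      have h4 : (x : ℤ) ≡ -((v j).1 + r p * (v j).2) [ZMOD (p : ℤ)] := h1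
      exact h4.symm.dvd
    have h3 : (x : ℤ) + (v j).1 + r p * (v j).2 = (x : ℤ) - (-((v j).1 + r p * (v j).2)) := by ring
    rw [h3]; exact h2
  · intro x hx y hy hxy
    rw [mem_coe, mem_filter, mem_range] at hx hy
    have h1 : ∀ p ∈ P, (p : ℤ) ∣ (x : ℤ) - y := by
      intro p hp
      have h2 : x % p = y % p := congrFun (congrFun hxy p) hp
      have h3 : (x : ℤ) ≡ y [ZMOD p] := by exact_mod_cast (show x ≡ y [MOD p] from h2)
      exact h3.symm.dvd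
    have h2 : (∏ p ∈ P, (p : ℤ)) ∣ (x : ℤ) - y := by
      apply Finset.prod_dvd_of_coprime _ h1
      intro p hp q hq hpq
      exact Nat.isCoprime_iff_coprime.2 ((Nat.coprime_primes (hP p hp) (hP q hq)).2 hpq)
    have h3 : ((∏ p ∈ P, p : ℕ) : ℤ) ∣ (x : ℤ) - y := by
      rw [Nat.cast_prod]; exact h2
    have h4 := hx.1
    have h5 := hy.1
    have h6 : (x : ℤ) - y = 0 := by
      apply Int.eq_zero_of_abs_lt_dvd h3
      rw [abs_lt]
      constructor <;> omega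
    omega

/-- Row C. -/
theorem rowC (P : Finset ℕ) (hP : ∀ p ∈ P, p.Prime) (r : ℕ → ℤ) (k : ℕ)
    (F : Finset (Fin k → ℤ × ℤ)) (hk : ∀ p ∈ P, k ≤ p)
    (hF : ∀ v ∈ F, ∀ p ∈ P,
      Function.Injective (fun j => (((v j).1 + r p * (v j).2 : ℤ) : ZMod p)))
    (hlt : (F.card : ℝ) * ∏ p ∈ P, (1 - (k:ℝ)/p) < 1) :
    ∃ x : ℕ, x < ∏ p ∈ P, p ∧ ∀ v ∈ F, ∃ j, ∃ p ∈ P,
      (p:ℤ) ∣ x + (v j).1 + r p * (v j).2 := by
  classical
  by_contra hcon
  push Not at hcon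
  have hsub : range (∏ p ∈ P, p) ⊆ F.biUnion (fun v => (range (∏ p ∈ P, p)).filter
      (fun x : ℕ => ∀ j, ∀ p ∈ P, ¬ (p:ℤ) ∣ x + (v j).1 + r p * (v j).2)) := by
    intro x hx
    obtain ⟨v, hv, h⟩ := hcon x (mem_range.1 hx)
    rw [mem_biUnion]
    exact ⟨v, hv, mem_filter.2 ⟨hx, h⟩⟩
  have h1 := (card_le_card hsub).trans (card_biUnion_le_card_mul F _ (∏ p ∈ P, (p - k))
    (fun v hv => count P hP r k v (hF v hv)))
  rw [card_range] at h1
  have h2 : ((∏ p ∈ P, p : ℕ) : ℝ) ≤ (F.card : ℝ) * ((∏ p ∈ P, (p - k) : ℕ) : ℝ) := by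
    exact_mod_cast h1
  have h3 : ((∏ p ∈ P, (p - k) : ℕ) : ℝ) = ((∏ p ∈ P, p : ℕ) : ℝ) * ∏ p ∈ P, (1 - (k:ℝ)/p) := by
    rw [Nat.cast_prod, Nat.cast_prod, ← prod_mul_distrib]
    refine prod_congr rfl fun p hp => ?_
    have hp0 : (p : ℝ) ≠ 0 := by exact_mod_cast (hP p hp).ne_zero
    rw [Nat.cast_sub (hk p hp)]
    field_simp
  rw [h3] at h2
  have h4 : (0 : ℝ) < ((∏ p ∈ P, p : ℕ) : ℝ) := by
    exact_mod_cast prod_pos fun p hp => (hP p hp).pos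
  nlinarith

end Vale.Agent.H5.P015
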